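import Vale.Agent.P235.H830.QDefs

/-!
# (MQ) `Q r` is monotone in `r` (helper638)

The rows and columns from `r` on are added to the vertex `c = inl (inl 2)`.
-/

namespace Vale.Agent.P235.H638

open SimpleGraph Vale.Agent.P235.H134 Vale.Agent.P235.H56 Vale.Agent.P235.H141
open Vale.Agent.P235.H830

/-! ## Adjacency of `Q r` -/

theorem Q_tri (r : ℕ) {i j : Fin 3} (h : i ≠ j) :
    (Q r).Adj (Sum.inl (Sum.inl i)) (Sum.inl (Sum.inl j)) := by
  unfold Q
  rw [SimpleGraph.fromRel_adj]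
  exact ⟨by simpa using h, Or.inl (Or.inl ⟨i, j, h, rfl, rfl⟩)⟩

theorem Q_two (r : ℕ) (i : Fin 3) (j : Fin 2) :
    (Q r).Adj (Sum.inl (Sum.inl i)) (Sum.inl (Sum.inr j)) := by
  unfold Q
  rw [SimpleGraph.fromRel_adj]
  exact ⟨by simp, Or.inl (Or.inr (Or.inl ⟨i, j, rfl, rfl⟩))⟩

theorem Q_side {r : ℕ} {i : Fin 3} {x : Fin r × Fin r} (h : x ∈ side r i) :
    (Q r).Adj (Sum.inl (Sum.inl i)) (Sum.inr x) := by
  unfold Q
  rw [SimpleGraph.fromRel_adj]
  exact ⟨by simp, Or.inl (Or.inr (Or.inr (Or.inl ⟨i, x, h, rfl, rfl⟩)))⟩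

theorem Q_grid {r : ℕ} {x y : Fin r × Fin r} (h : (grid r).Adj x y) :
    (Q r).Adj (Sum.inr x) (Sum.inr y) := by
  unfold Q
  rw [SimpleGraph.fromRel_adj]
  exact ⟨by simpa using h.ne, Or.inl (Or.inr (Or.inr (Or.inr ⟨x, y, h, rfl, rfl⟩)))⟩

/-- to check a symmetric property on the edges of `Q r` -/
theorem Q_ind {r : ℕ} {T : ((Fin 3 ⊕ Fin 2) ⊕ (Fin r × Fin r)) →
    ((Fin 3 ⊕ Fin 2) ⊕ (Fin r × Fin r)) → Prop} (hs : ∀ a b, T a b → T b a)
    (h1 : ∀ i j : Fin 3, i ≠ j → T (Sum.inl (Sum.inl i)) (Sum.inl (Sum.inl j)))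
    (h2 : ∀ (i : Fin 3) (j : Fin 2), T (Sum.inl (Sum.inl i)) (Sum.inl (Sum.inr j)))
    (h3 : ∀ (i : Fin 3) (x : Fin r × Fin r), x ∈ side r i → T (Sum.inl (Sum.inl i)) (Sum.inr x))
    (h4 : ∀ x y : Fin r × Fin r, (grid r).Adj x y → T (Sum.inr x) (Sum.inr y)) :
    ∀ a b, (Q r).Adj a b → T a b := by
  intro a b hab
  unfold Q at hab
  rw [SimpleGraph.fromRel_adj] at hab
  obtain ⟨_, hab⟩ := hab
  rcases hab with hab | hab
  · rcases hab with ⟨i, j, h, rfl, rfl⟩ | ⟨i, j, rfl, rfl⟩ | ⟨i, x, h, rfl, rfl⟩ |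
      ⟨x, y, h, rfl, rfl⟩
    · exact h1 i j h
    · exact h2 i j
    · exact h3 i x h
    · exact h4 x y h
  · rcases hab with ⟨i, j, h, rfl, rfl⟩ | ⟨i, j, rfl, rfl⟩ | ⟨i, x, h, rfl, rfl⟩ |
      ⟨x, y, h, rfl, rfl⟩
    · exact hs _ _ (h1 i j h)
    · exact hs _ _ (h2 i j)
    · exact hs _ _ (h3 i x h)
    · exact hs _ _ (h4 x y h)

theorem grid_adj {r : ℕ} {x y : Fin r × Fin r} :
    (grid r).Adj x y ↔ ((x.1.val + 1 = y.1.val ∨ y.1.val + 1 = x.1.val) ∧ x.2 = y.2) ∨
      ((x.2.val + 1 = y.2.val ∨ y.2.val + 1 = x.2.val) ∧ x.1 = y.1) := by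
  unfold grid
  rw [SimpleGraph.boxProd_adj]
  simp only [SimpleGraph.pathGraph_adj]

/-- the map `Q s → Q r` -/
def fq (r s : ℕ) : ((Fin 3 ⊕ Fin 2) ⊕ (Fin s × Fin s)) → ((Fin 3 ⊕ Fin 2) ⊕ (Fin r × Fin r))
  | Sum.inl v => Sum.inl v
  | Sum.inr y => if h : y.1.val < r ∧ y.2.val < r then
      Sum.inr (⟨y.1.val, h.1⟩, ⟨y.2.val, h.2⟩) else Sum.inl (Sum.inl 2)

theorem fq_inl (r s : ℕ) (v : Fin 3 ⊕ Fin 2) : fq r s (Sum.inl v) = Sum.inl v := rfl

theorem fq_out {r s : ℕ} {y : Fin s × Fin s} (h : r ≤ y.1.val ∨ r ≤ y.2.val) :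
    fq r s (Sum.inr y) = Sum.inl (Sum.inl 2) := by
  exact dif_neg (by omega)

theorem fq_in {r s : ℕ} {y : Fin s × Fin s} (h : y.1.val < r ∧ y.2.val < r) :
    fq r s (Sum.inr y) = Sum.inr (⟨y.1.val, h.1⟩, ⟨y.2.val, h.2⟩) := by
  exact dif_pos h

/-- a vertex of the small grid in the large grid -/
def up' {r s : ℕ} (h : r ≤ s) (x : Fin r × Fin r) : Fin s × Fin s :=
  (Fin.castLE h x.1, Fin.castLE h x.2)

theorem fq_up {r s : ℕ} (h : r ≤ s) (x : Fin r × Fin r) :
    fq r s (Sum.inr (up' h x)) = Sum.inr x :=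
  fq_in (y := up' h x) ⟨x.1.isLt, x.2.isLt⟩

/-- a fibre with one element -/
theorem conn_single {V : Type} {G : SimpleGraph V} {S : Set V} (x : V) (h : S = {x}) :
    (G.induce S).Connected := by
  subst h
  have : Nonempty ({x} : Set V) := ⟨⟨x, rfl⟩⟩
  refine ⟨fun u v => ?_⟩
  have : u = v := Subtype.ext (u.2.trans v.2.symm)
  rw [this]

theorem conn_star {V : Type} {G : SimpleGraph V} {S : Set V} (x : V) (hx : x ∈ S)
    (h : ∀ y (hy : y ∈ S), (G.induce S).Reachable ⟨y, hy⟩ ⟨x, hx⟩) :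
    (G.induce S).Connected := by
  have : Nonempty S := ⟨⟨x, hx⟩⟩
  exact ⟨fun u v => (h u.1 u.2).trans (h v.1 v.2).symm⟩

theorem reach_fst {r s : ℕ} : ∀ (n : ℕ) (y : Fin s × Fin s), y.1.val + 1 + n = s →
    (hy : r ≤ y.1.val) →
    ((Q s).induce (fq r s ⁻¹' {Sum.inl (Sum.inl 2)})).Reachable
      ⟨Sum.inr y, fq_out (Or.inl hy)⟩ ⟨Sum.inl (Sum.inl 2), rfl⟩ := by
  intro n
  induction n with
  | zero =>
    intro y h hy
    have h1 : ((Q s).induce (fq r s ⁻¹' {Sum.inl (Sum.inl 2)})).Adj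
        ⟨Sum.inr y, fq_out (Or.inl hy)⟩ ⟨Sum.inl (Sum.inl 2), rfl⟩ :=
      (Q_side (i := 2) (x := y) (by unfold side; right; right; exact ⟨rfl, Or.inl (by omega)⟩)).symm
    exact h1.reachable
  | succ n ih =>
    intro y h hy
    have hlt : y.1.val + 1 < s := by omega
    have h1 : ((Q s).induce (fq r s ⁻¹' {Sum.inl (Sum.inl 2)})).Adj
        ⟨Sum.inr y, fq_out (Or.inl hy)⟩
        ⟨Sum.inr (⟨y.1.val + 1, hlt⟩, y.2), fq_out (Or.inl (by show r ≤ y.1.val + 1; omega))⟩ :=
      Q_grid (grid_adj.2 (Or.inl ⟨Or.inl rfl, rfl⟩))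
    exact h1.reachable.trans (ih (⟨y.1.val + 1, hlt⟩, y.2) (by show y.1.val + 1 + 1 + n = s; omega)
      (by show r ≤ y.1.val + 1; omega))

theorem reach_snd {r s : ℕ} : ∀ (n : ℕ) (y : Fin s × Fin s), y.2.val + 1 + n = s →
    (hy : r ≤ y.2.val) →
    ((Q s).induce (fq r s ⁻¹' {Sum.inl (Sum.inl 2)})).Reachable
      ⟨Sum.inr y, fq_out (Or.inr hy)⟩ ⟨Sum.inl (Sum.inl 2), rfl⟩ := by
  intro n
  induction n with
  | zero =>
    intro y h hy
    have h1 : ((Q s).induce (fq r s ⁻¹' {Sum.inl (Sum.inl 2)})).Adj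
        ⟨Sum.inr y, fq_out (Or.inr hy)⟩ ⟨Sum.inl (Sum.inl 2), rfl⟩ :=
      (Q_side (i := 2) (x := y) (by unfold side; right; right; exact ⟨rfl, Or.inr (by omega)⟩)).symm
    exact h1.reachable
  | succ n ih =>
    intro y h hy
    have hlt : y.2.val + 1 < s := by omega
    have h1 : ((Q s).induce (fq r s ⁻¹' {Sum.inl (Sum.inl 2)})).Adj
        ⟨Sum.inr y, fq_out (Or.inr hy)⟩
        ⟨Sum.inr (y.1, ⟨y.2.val + 1, hlt⟩), fq_out (Or.inr (by show r ≤ y.2.val + 1; omega))⟩ :=
      Q_grid (grid_adj.2 (Or.inr ⟨Or.inl rfl, rfl⟩))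
    exact h1.reachable.trans (ih (y.1, ⟨y.2.val + 1, hlt⟩) (by show y.2.val + 1 + 1 + n = s; omega)
      (by show r ≤ y.2.val + 1; omega))

theorem conn_two {r s : ℕ} :
    ((Q s).induce (fq r s ⁻¹' {Sum.inl (Sum.inl 2)})).Connected := by
  refine conn_star (Sum.inl (Sum.inl 2)) rfl ?_
  rintro (v | y) hy
  · have : v = Sum.inl 2 := by
      have h : Sum.inl v = (Sum.inl (Sum.inl 2) : (Fin 3 ⊕ Fin 2) ⊕ (Fin r × Fin r)) := hy
      exact Sum.inl.inj h
    subst this
    exact SimpleGraph.Reachable.refl _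
  · by_cases h : y.1.val < r ∧ y.2.val < r
    · exfalso
      have h' : fq r s (Sum.inr y) = Sum.inl (Sum.inl 2) := hy
      rw [fq_in h] at h'
      exact absurd h' (by simp)
    · by_cases h1 : r ≤ y.1.val
      · exact reach_fst (s - y.1.val - 1) y (by have := y.1.isLt; omega) h1
      · exact reach_snd (s - y.2.val - 1) y (by have := y.2.isLt; omega) (by omega)

/-- **(MQ)** -/
theorem monoQ : MonoQStmt := by
  intro r s hrs
  rcases hrs.eq_or_lt with rfl | hlt
  · -- the identity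
    refine ⟨fun a => {a}, fun a => conn_single a rfl, ?_, ?_⟩
    · intro a b hab
      exact Set.disjoint_singleton.2 hab
    · intro a b hab
      exact ⟨a, rfl, b, rfl, hab⟩
  · refine ⟨fun a => fq r s ⁻¹' {a}, ?_, ?_, ?_⟩
    · rintro ((i | j) | x)
      · by_cases hi : i = 2
        · subst hi
          exact conn_two
        · refine conn_single (Sum.inl (Sum.inl i)) ?_
          ext p
          constructor
          · intro hp
            have hp' : fq r s p = Sum.inl (Sum.inl i) := hp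
            rcases p with v | y
            · rw [fq_inl] at hp'
              exact congrArg Sum.inl (Sum.inl.inj hp')
            · exfalso
              by_cases h : y.1.val < r ∧ y.2.val < r
              · rw [fq_in h] at hp'
                exact absurd hp' (by simp)
              · rw [fq_out (by omega)] at hp'
                exact hi (Sum.inl.inj (Sum.inl.inj hp')).symm
          · rintro rfl
            rfl
      · refine conn_single (Sum.inl (Sum.inr j)) ?_
        ext p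
        constructor
        · intro hp
          have hp' : fq r s p = Sum.inl (Sum.inr j) := hp
          rcases p with v | y
          · rw [fq_inl] at hp'
            exact congrArg Sum.inl (Sum.inl.inj hp')
          · exfalso
            by_cases h : y.1.val < r ∧ y.2.val < r
            · rw [fq_in h] at hp'
              exact absurd hp' (by simp)
            · rw [fq_out (by omega)] at hp'
              exact absurd hp' (by simp)
        · rintro rfl
          rfl
      · refine conn_single (Sum.inr (up' hlt.le x)) ?_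
        ext p
        constructor
        · intro hp
          have hp' : fq r s p = Sum.inr x := hp
          rcases p with v | y
          · rw [fq_inl] at hp'
            exact absurd hp' (by simp)
          · by_cases h : y.1.val < r ∧ y.2.val < r
            · rw [fq_in h] at hp'
              have h2 := Sum.inr.inj hp'
              subst h2
              rfl
            · exfalso
              rw [fq_out (by omega)] at hp'
              exact absurd hp' (by simp)
        · rintro rfl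
          exact fq_up hlt.le x
    · intro a b hab
      rw [Set.disjoint_left]
      intro p hp hp'
      exact hab (hp.symm.trans hp')
    · refine Q_ind ?_ ?_ ?_ ?_ ?_
      · rintro a b ⟨x, hx, y, hy, h⟩
        exact ⟨y, hy, x, hx, h.symm⟩
      · intro i j h
        exact ⟨Sum.inl (Sum.inl i), rfl, Sum.inl (Sum.inl j), rfl, Q_tri s h⟩
      · intro i j
        exact ⟨Sum.inl (Sum.inl i), rfl, Sum.inl (Sum.inr j), rfl, Q_two s i j⟩
      · intro i x hx
        have hx1 := x.1.isLt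
        have hx2 := x.2.isLt
        rcases hx with ⟨hi, h⟩ | ⟨hi, h⟩ | ⟨hi, h⟩
        · refine ⟨Sum.inl (Sum.inl i), rfl, Sum.inr (up' hlt.le x), fq_up hlt.le x, Q_side ?_⟩
          exact Or.inl ⟨hi, h⟩
        · refine ⟨Sum.inl (Sum.inl i), rfl, Sum.inr (up' hlt.le x), fq_up hlt.le x, Q_side ?_⟩
          exact Or.inr (Or.inl ⟨hi, h⟩)
        · subst hi
          rcases h with h | h
          · refine ⟨Sum.inr (⟨x.1.val + 1, by omega⟩, Fin.castLE hlt.le x.2),
              fq_out (Or.inl (by show r ≤ x.1.val + 1; omega)), Sum.inr (up' hlt.le x),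
              fq_up hlt.le x, Q_grid (grid_adj.2 (Or.inl ⟨Or.inr rfl, rfl⟩))⟩
          · refine ⟨Sum.inr (Fin.castLE hlt.le x.1, ⟨x.2.val + 1, by omega⟩),
              fq_out (Or.inr (by show r ≤ x.2.val + 1; omega)), Sum.inr (up' hlt.le x),
              fq_up hlt.le x, Q_grid (grid_adj.2 (Or.inr ⟨Or.inr rfl, rfl⟩))⟩
      · intro x y h
        refine ⟨Sum.inr (up' hlt.le x), fq_up hlt.le x, Sum.inr (up' hlt.le y),
          fq_up hlt.le y, Q_grid ?_⟩
        rw [grid_adj] at h ⊢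
        rcases h with ⟨h1, h2⟩ | ⟨h1, h2⟩
        · exact Or.inl ⟨h1, by show Fin.castLE hlt.le x.2 = Fin.castLE hlt.le y.2; rw [h2]⟩
        · exact Or.inr ⟨h1, by show Fin.castLE hlt.le x.1 = Fin.castLE hlt.le y.1; rw [h2]⟩

end Vale.Agent.P235.H638
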