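import Vale.Agent.P235.H638.MonoQ

/-!
# The inversion (helper638, formula of helper381)

The grid `n`, rooted at any vertex `h`, is a rooted minor of the grid `4 n + 1` with a vertex `none`
joined to its boundary, rooted at `none`: rings around `h` go to rings of the large grid, turned
inside out.
-/

namespace Vale.Agent.P235.H638

open SimpleGraph Vale.Agent.P235.H134 Vale.Agent.P235.H56 Vale.Agent.P235.H141
open Vale.Agent.P235.H341W (capG)

/-- the vertex `(x, y)` of the ring `N + 1 - k` is in the branch set of the vertex `(a, b)` of the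
ring `k`: the coordinatewise clamp of `(x, y)` to `[-k, k]` is `(a, b)` -/
def Rl (N k x y a b : ℤ) : Prop :=
  1 ≤ k ∧ (-k ≤ a ∧ a ≤ k ∧ -k ≤ b ∧ b ≤ k) ∧ (a = k ∨ a = -k ∨ b = k ∨ b = -k) ∧
    (-(N + 1 - k) ≤ x ∧ x ≤ N + 1 - k ∧ -(N + 1 - k) ≤ y ∧ y ≤ N + 1 - k) ∧
    (x = N + 1 - k ∨ x = -(N + 1 - k) ∨ y = N + 1 - k ∨ y = -(N + 1 - k)) ∧
    (x ≤ -k ∧ a = -k ∨ -k < x ∧ x < k ∧ a = x ∨ k ≤ x ∧ a = k) ∧
    (y ≤ -k ∧ b = -k ∨ -k < y ∧ y < k ∧ b = y ∨ k ≤ y ∧ b = k)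

def Rel (N x y a b : ℤ) : Prop := ∃ k, 2 * k ≤ N ∧ Rl N k x y a b

theorem Rel.swap {N x y a b : ℤ} (h : Rel N x y a b) : Rel N y x b a := by
  obtain ⟨k, h0, h1, ⟨h2, h3, h4, h5⟩, h6, ⟨h7, h8, h9, h10⟩, h11, h12, h13⟩ := h
  refine ⟨k, h0, h1, ⟨h4, h5, h2, h3⟩, ?_, ⟨h9, h10, h7, h8⟩, ?_, h13, h12⟩
  · rcases h6 with h | h | h | h
    · exact Or.inr (Or.inr (Or.inl h))
    · exact Or.inr (Or.inr (Or.inr h))
    · exact Or.inl h
    · exact Or.inr (Or.inl h)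
  · rcases h11 with h | h | h | h
    · exact Or.inr (Or.inr (Or.inl h))
    · exact Or.inr (Or.inr (Or.inr h))
    · exact Or.inl h
    · exact Or.inr (Or.inl h)

theorem Rel.inj {N x y a b a' b' : ℤ} (h : Rel N x y a b) (h' : Rel N x y a' b') :
    a = a' ∧ b = b' := by
  obtain ⟨k, h0, h1, h2, h3, h4, h5, h6, h7⟩ := h
  obtain ⟨k', h0', h1', h2', h3', h4', h5', h6', h7'⟩ := h'
  have hk : k = k' := by omega
  subst hk
  omega

theorem Rel.ne {N x y a b : ℤ} (h : Rel N x y a b) : ¬ (a = 0 ∧ b = 0) := by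
  obtain ⟨k, h0, h1, h2, h3, -⟩ := h
  omega

/-- the end of the walks in the fibre -/
theorem exists_centre {N k a b : ℤ} (hk : 1 ≤ k) (hN : 2 * k ≤ N)
    (h2 : -k ≤ a ∧ a ≤ k ∧ -k ≤ b ∧ b ≤ k) (h3 : a = k ∨ a = -k ∨ b = k ∨ b = -k) :
    ∃ cx cy : ℤ, Rl N k cx cy a b ∧ ∀ x y, Rl N k x y a b → (x = cx ∧ y = cy) ∨
      ∃ x' y', Rl N k x' y' a b ∧ ((x' = x + 1 ∨ x = x' + 1) ∧ y' = y ∨
        (y' = y + 1 ∨ y = y' + 1) ∧ x' = x) ∧
        (cx - x').natAbs + (cy - y').natAbs < (cx - x).natAbs + (cy - y).natAbs := by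
  obtain ⟨cx, hcx⟩ : ∃ cx : ℤ, a = k ∧ cx = N + 1 - k ∨ a = -k ∧ cx = -(N + 1 - k) ∨
      -k < a ∧ a < k ∧ cx = a := by
    rcases lt_trichotomy a k with h | h | h
    · rcases lt_trichotomy (-k) a with h' | h' | h'
      · exact ⟨a, Or.inr (Or.inr ⟨h', h, rfl⟩)⟩
      · exact ⟨-(N + 1 - k), Or.inr (Or.inl ⟨h'.symm, rfl⟩)⟩
      · omega
    · exact ⟨N + 1 - k, Or.inl ⟨h, rfl⟩⟩
    · omega
  obtain ⟨cy, hcy⟩ : ∃ cy : ℤ, b = k ∧ cy = N + 1 - k ∨ b = -k ∧ cy = -(N + 1 - k) ∨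
      -k < b ∧ b < k ∧ cy = b := by
    rcases lt_trichotomy b k with h | h | h
    · rcases lt_trichotomy (-k) b with h' | h' | h'
      · exact ⟨b, Or.inr (Or.inr ⟨h', h, rfl⟩)⟩
      · exact ⟨-(N + 1 - k), Or.inr (Or.inl ⟨h'.symm, rfl⟩)⟩
      · omega
    · exact ⟨N + 1 - k, Or.inl ⟨h, rfl⟩⟩
    · omega
  refine ⟨cx, cy, ⟨hk, h2, h3, by omega, by omega, by omega, by omega⟩, ?_⟩
  rintro x y ⟨g1, g2, g3, g4, g5, g6, g7⟩
  by_cases hx : x = cx
  · by_cases hy : y = cy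
    · exact Or.inl ⟨hx, hy⟩
    · right
      by_cases hlt : y < cy
      · exact ⟨x, y + 1, ⟨hk, h2, h3, by omega, by omega, g6, by omega⟩,
          Or.inr ⟨Or.inl rfl, rfl⟩, by omega⟩
      · exact ⟨x, y - 1, ⟨hk, h2, h3, by omega, by omega, g6, by omega⟩,
          Or.inr ⟨Or.inr (by omega), rfl⟩, by omega⟩
  · right
    by_cases hlt : x < cx
    · exact ⟨x + 1, y, ⟨hk, h2, h3, by omega, by omega, by omega, g7⟩,
        Or.inl ⟨Or.inl rfl, rfl⟩, by omega⟩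
    · exact ⟨x - 1, y, ⟨hk, h2, h3, by omega, by omega, by omega, g7⟩,
        Or.inl ⟨Or.inr (by omega), rfl⟩, by omega⟩

/-- a horizontal edge -/
theorem edge1 {N n a b : ℤ} (hN : 2 * n ≤ N) (h1 : -n < a) (h2 : a + 1 < n) (h3 : -n < b)
    (h4 : b < n) :
    (a = 0 ∧ b = 0 ∧ ∃ x y, Rel N x y (a + 1) b ∧ (x = N ∨ x = -N)) ∨
    (a + 1 = 0 ∧ b = 0 ∧ ∃ x y, Rel N x y a b ∧ (x = N ∨ x = -N)) ∨
    ∃ x y x' y', Rel N x y a b ∧ Rel N x' y' (a + 1) b ∧
      ((x' = x + 1 ∨ x = x' + 1) ∧ y' = y ∨ (y' = y + 1 ∨ y = y' + 1) ∧ x' = x) := by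
  obtain ⟨k, hk, hk'⟩ : ∃ k : ℤ, (-k ≤ a ∧ a ≤ k ∧ -k ≤ b ∧ b ≤ k) ∧
      (a = k ∨ a = -k ∨ b = k ∨ b = -k) :=
    ⟨max (max a (-a)) (max b (-b)), by omega, by omega⟩
  by_cases hA : a = k
  · by_cases h0 : k = 0
    · left
      refine ⟨by omega, by omega, N, 0, ⟨1, by omega, by omega, by omega, by omega, by omega,
        by omega, by omega, by omega⟩, Or.inl rfl⟩
    · right; right
      refine ⟨N + 1 - k, b, N + 1 - (k + 1), b, ⟨k, by omega, by omega, by omega, by omega,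
        by omega, by omega, by omega, by omega⟩, ⟨k + 1, by omega, by omega, by omega, by omega,
        by omega, by omega, by omega, by omega⟩, Or.inl ⟨Or.inr (by omega), rfl⟩⟩
  · by_cases hB : b = k
    · right; right
      refine ⟨a, N + 1 - k, a + 1, N + 1 - k, ⟨k, by omega, by omega, by omega, by omega,
        by omega, by omega, by omega, by omega⟩, ⟨k, by omega, by omega, by omega, by omega,
        by omega, by omega, by omega, by omega⟩, Or.inl ⟨Or.inl rfl, rfl⟩⟩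
    · by_cases hC : b = -k
      · right; right
        refine ⟨a, -(N + 1 - k), a + 1, -(N + 1 - k), ⟨k, by omega, by omega, by omega, by omega,
          by omega, by omega, by omega, by omega⟩, ⟨k, by omega, by omega, by omega, by omega,
          by omega, by omega, by omega, by omega⟩, Or.inl ⟨Or.inl rfl, rfl⟩⟩
      · have ha : a = -k := by omega
        by_cases h0 : k = 1
        · right; left
          refine ⟨by omega, by omega, -N, 0, ⟨1, by omega, by omega, by omega, by omega, by omega,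
            by omega, by omega, by omega⟩, Or.inr rfl⟩
        · right; right
          refine ⟨-(N + 1 - k), b, -(N + 1 - (k - 1)), b, ⟨k, by omega, by omega, by omega,
            by omega, by omega, by omega, by omega, by omega⟩, ⟨k - 1, by omega, by omega,
            by omega, by omega, by omega, by omega, by omega, by omega⟩,
            Or.inl ⟨Or.inr (by omega), rfl⟩⟩

/-- the vertex of the large grid with given coordinates -/
theorem exists_pt {N : ℕ} {x y : ℤ} (h1 : -(N : ℤ) ≤ x) (h2 : x ≤ N) (h3 : -(N : ℤ) ≤ y)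
    (h4 : y ≤ N) : ∃ w : Fin (2 * N + 1) × Fin (2 * N + 1),
      (w.1.val : ℤ) - N = x ∧ (w.2.val : ℤ) - N = y :=
  ⟨(⟨(x + N).toNat, by omega⟩, ⟨(y + N).toNat, by omega⟩), by
    constructor
    · show ((x + N).toNat : ℤ) - N = x
      omega
    · show ((y + N).toNat : ℤ) - N = y
      omega⟩

theorem Rel.bound {N x y a b : ℤ} (h : Rel N x y a b) : -N ≤ x ∧ x ≤ N ∧ -N ≤ y ∧ y ≤ N := by
  obtain ⟨k, h0, h1, h2, h3, h4, -⟩ := h
  omega

theorem adj_pt {N : ℕ} {w w' : Fin (2 * N + 1) × Fin (2 * N + 1)} {x y x' y' : ℤ}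
    (h1 : (w.1.val : ℤ) - N = x) (h2 : (w.2.val : ℤ) - N = y) (h1' : (w'.1.val : ℤ) - N = x')
    (h2' : (w'.2.val : ℤ) - N = y')
    (h : (x' = x + 1 ∨ x = x' + 1) ∧ y' = y ∨ (y' = y + 1 ∨ y = y' + 1) ∧ x' = x) :
    (capG (grid (2 * N + 1)) (bd (2 * N + 1))).Adj (some w) (some w') := by
  show (grid (2 * N + 1)).Adj w w'
  rw [grid_adj]
  rcases h with ⟨h, e⟩ | ⟨h, e⟩
  · exact Or.inl ⟨by omega, Fin.ext (by omega)⟩
  · exact Or.inr ⟨by omega, Fin.ext (by omega)⟩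

/-- the branch sets -/
def mu (n N : ℕ) (h p : Fin n × Fin n) : Set (Option (Fin (2 * N + 1) × Fin (2 * N + 1))) :=
  {o | match o with
    | none => p = h
    | some w => Rel N ((w.1.val : ℤ) - N) ((w.2.val : ℤ) - N) ((p.1.val : ℤ) - h.1.val)
        ((p.2.val : ℤ) - h.2.val)}

theorem mem_none {n N : ℕ} {h p : Fin n × Fin n} : none ∈ mu n N h p ↔ p = h := Iff.rfl

theorem mem_some {n N : ℕ} {h p : Fin n × Fin n} {w : Fin (2 * N + 1) × Fin (2 * N + 1)} :
    some w ∈ mu n N h p ↔ Rel N ((w.1.val : ℤ) - N) ((w.2.val : ℤ) - N)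
      ((p.1.val : ℤ) - h.1.val) ((p.2.val : ℤ) - h.2.val) := Iff.rfl

theorem mem_of {n N : ℕ} {h p : Fin n × Fin n} {w : Fin (2 * N + 1) × Fin (2 * N + 1)} {x y : ℤ}
    (h1 : (w.1.val : ℤ) - N = x) (h2 : (w.2.val : ℤ) - N = y)
    (hr : Rel N x y ((p.1.val : ℤ) - h.1.val) ((p.2.val : ℤ) - h.2.val)) :
    some w ∈ mu n N h p := by
  rw [mem_some, h1, h2]
  exact hr

theorem mu_conn {n N : ℕ} (hN : 2 * n ≤ N) (h p : Fin n × Fin n) :
    ((capG (grid (2 * N + 1)) (bd (2 * N + 1))).induce (mu n N h p)).Connected := by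
  by_cases hp : p = h
  · subst hp
    refine conn_single none ?_
    ext o
    rcases o with _ | w
    · exact ⟨fun _ => rfl, fun _ => rfl⟩
    · constructor
      · intro hw
        exact absurd ⟨sub_self _, sub_self _⟩ (Rel.ne (mem_some.1 hw))
      · intro hw
        exact absurd hw (by simp)
  · obtain ⟨a, ha⟩ : ∃ a : ℤ, (p.1.val : ℤ) - h.1.val = a := ⟨_, rfl⟩
    obtain ⟨b, hb⟩ : ∃ b : ℤ, (p.2.val : ℤ) - h.2.val = b := ⟨_, rfl⟩
    have hab : ¬ (a = 0 ∧ b = 0) := by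
      rintro ⟨h1, h2⟩
      exact hp (Prod.ext (Fin.ext (by omega)) (Fin.ext (by omega)))
    obtain ⟨k, hk, hk'⟩ : ∃ k : ℤ, (-k ≤ a ∧ a ≤ k ∧ -k ≤ b ∧ b ≤ k) ∧
        (a = k ∨ a = -k ∨ b = k ∨ b = -k) :=
      ⟨max (max a (-a)) (max b (-b)), by omega, by omega⟩
    have g1 := p.1.isLt
    have g2 := p.2.isLt
    have g3 := h.1.isLt
    have g4 := h.2.isLt
    obtain ⟨cx, cy, hc, hstep⟩ := exists_centre (N := N) (k := k) (by omega) (by omega) hk hk'
    have hkN : 2 * k ≤ N := by omega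
    have hcR : Rel N cx cy a b := ⟨k, hkN, hc⟩
    obtain ⟨c, hc1, hc2⟩ := exists_pt hcR.bound.1 hcR.bound.2.1 hcR.bound.2.2.1 hcR.bound.2.2.2
    have hcm : some c ∈ mu n N h p := mem_of hc1 hc2 (by rw [ha, hb]; exact hcR)
    refine conn_star (some c) hcm ?_
    have key : ∀ (m : ℕ) (w : Fin (2 * N + 1) × Fin (2 * N + 1)) (hw : some w ∈ mu n N h p),
        (cx - ((w.1.val : ℤ) - N)).natAbs + (cy - ((w.2.val : ℤ) - N)).natAbs ≤ m →
        ((capG (grid (2 * N + 1)) (bd (2 * N + 1))).induce (mu n N h p)).Reachable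
          ⟨some w, hw⟩ ⟨some c, hcm⟩ := by
      intro m
      induction m with
      | zero =>
        intro w hw hm
        have : w = c := Prod.ext (Fin.ext (by omega)) (Fin.ext (by omega))
        subst this
        exact SimpleGraph.Reachable.refl _
      | succ m ih =>
        intro w hw hm
        have hwR : Rel N ((w.1.val : ℤ) - N) ((w.2.val : ℤ) - N) a b := by
          have := mem_some.1 hw
          rw [ha, hb] at this
          exact this
        obtain ⟨k', hk'N, hR⟩ := hwR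
        have hkk : k' = k := by
          obtain ⟨e1, e2, e3, -⟩ := hR
          omega
        subst hkk
        rcases hstep _ _ hR with ⟨e1, e2⟩ | ⟨x', y', hR', hadj, hlt⟩
        · have : w = c := Prod.ext (Fin.ext (by omega)) (Fin.ext (by omega))
          subst this
          exact SimpleGraph.Reachable.refl _
        · have hR'' : Rel N x' y' a b := ⟨k', hk'N, hR'⟩
          obtain ⟨w', hw1, hw2⟩ := exists_pt hR''.bound.1 hR''.bound.2.1 hR''.bound.2.2.1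
            hR''.bound.2.2.2
          have hw'm : some w' ∈ mu n N h p := mem_of hw1 hw2 (by rw [ha, hb]; exact hR'')
          have h1 : ((capG (grid (2 * N + 1)) (bd (2 * N + 1))).induce (mu n N h p)).Adj
              ⟨some w, hw⟩ ⟨some w', hw'm⟩ := adj_pt rfl rfl hw1 hw2 hadj
          exact h1.reachable.trans (ih w' hw'm (by rw [hw1, hw2]; omega))
    rintro (_ | w) hw
    · exact absurd (mem_none.1 hw) hp
    · exact key _ w hw le_rfl

/-- **The inversion.** -/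
theorem inv (n : ℕ) (h : Fin n × Fin n) :
    ∃ μ : Fin n × Fin n → Set (Option (Fin (2 * (2 * n) + 1) × Fin (2 * (2 * n) + 1))),
      (∀ a, ((capG (grid (2 * (2 * n) + 1)) (bd (2 * (2 * n) + 1))).induce (μ a)).Connected) ∧
      (∀ a b, a ≠ b → Disjoint (μ a) (μ b)) ∧
      (∀ a b, (grid n).Adj a b → ∃ x ∈ μ a, ∃ y ∈ μ b,
        (capG (grid (2 * (2 * n) + 1)) (bd (2 * (2 * n) + 1))).Adj x y) ∧ none ∈ μ h := by
  refine ⟨mu n (2 * n) h, mu_conn le_rfl h, ?_, ?_, mem_none.2 rfl⟩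
  · intro p q hpq
    rw [Set.disjoint_left]
    rintro (_ | w) hp hq
    · exact hpq ((mem_none.1 hp).trans (mem_none.1 hq).symm)
    · have := Rel.inj (mem_some.1 hp) (mem_some.1 hq)
      exact hpq (Prod.ext (Fin.ext (by omega)) (Fin.ext (by omega)))
  · -- edges
    have hbd : ∀ (w : Fin (2 * (2 * n) + 1) × Fin (2 * (2 * n) + 1)) {x y : ℤ},
        (w.1.val : ℤ) - (2 * n : ℕ) = x → (w.2.val : ℤ) - (2 * n : ℕ) = y →
        ((x = (2 * n : ℕ) ∨ x = -((2 * n : ℕ) : ℤ)) ∨ (y = (2 * n : ℕ) ∨ y = -((2 * n : ℕ) : ℤ))) →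
        w ∈ bd (2 * (2 * n) + 1) := by
      intro w x y h1 h2 h3
      show w.1.val = 0 ∨ w.2.val = 0 ∨ w.1.val + 1 = 2 * (2 * n) + 1 ∨
        w.2.val + 1 = 2 * (2 * n) + 1
      omega
    have e1 : ∀ p q : Fin n × Fin n, p.1.val + 1 = q.1.val → p.2 = q.2 →
        ∃ x ∈ mu n (2 * n) h p, ∃ y ∈ mu n (2 * n) h q,
          (capG (grid (2 * (2 * n) + 1)) (bd (2 * (2 * n) + 1))).Adj x y := by
      intro p q h1 h2
      obtain ⟨a, ha⟩ : ∃ a : ℤ, (p.1.val : ℤ) - h.1.val = a := ⟨_, rfl⟩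
      obtain ⟨b, hb⟩ : ∃ b : ℤ, (p.2.val : ℤ) - h.2.val = b := ⟨_, rfl⟩
      have ha' : (q.1.val : ℤ) - h.1.val = a + 1 := by omega
      have hb' : (q.2.val : ℤ) - h.2.val = b := by rw [← h2]; exact hb
      have g1 := p.1.isLt
      have g2 := p.2.isLt
      have g3 := h.1.isLt
      have g4 := h.2.isLt
      have g5 := q.1.isLt
      rcases edge1 (N := ((2 * n : ℕ) : ℤ)) (n := n) (a := a) (b := b) (by omega) (by omega)
        (by omega) (by omega) (by omega) with ⟨c1, c2, x, y, hR, hx⟩ | ⟨c1, c2, x, y, hR, hx⟩ |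
        ⟨x, y, x', y', hR, hR', hadj⟩
      · obtain ⟨w, hw1, hw2⟩ := exists_pt hR.bound.1 hR.bound.2.1 hR.bound.2.2.1 hR.bound.2.2.2
        refine ⟨none, mem_none.2 (Prod.ext (Fin.ext (by omega)) (Fin.ext (by omega))), some w,
          mem_of hw1 hw2 (by rw [ha', hb']; exact hR), ?_⟩
        exact hbd w hw1 hw2 (Or.inl hx)
      · obtain ⟨w, hw1, hw2⟩ := exists_pt hR.bound.1 hR.bound.2.1 hR.bound.2.2.1 hR.bound.2.2.2
        refine ⟨some w, mem_of hw1 hw2 (by rw [ha, hb]; exact hR), none,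
          mem_none.2 (Prod.ext (Fin.ext (by omega)) (Fin.ext (by omega))), ?_⟩
        exact hbd w hw1 hw2 (Or.inl hx)
      · obtain ⟨w, hw1, hw2⟩ := exists_pt hR.bound.1 hR.bound.2.1 hR.bound.2.2.1 hR.bound.2.2.2
        obtain ⟨w', hw1', hw2'⟩ := exists_pt hR'.bound.1 hR'.bound.2.1 hR'.bound.2.2.1
          hR'.bound.2.2.2
        exact ⟨some w, mem_of hw1 hw2 (by rw [ha, hb]; exact hR), some w',
          mem_of hw1' hw2' (by rw [ha', hb']; exact hR'), adj_pt hw1 hw2 hw1' hw2' hadj⟩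
    have e2 : ∀ p q : Fin n × Fin n, p.2.val + 1 = q.2.val → p.1 = q.1 →
        ∃ x ∈ mu n (2 * n) h p, ∃ y ∈ mu n (2 * n) h q,
          (capG (grid (2 * (2 * n) + 1)) (bd (2 * (2 * n) + 1))).Adj x y := by
      intro p q h1 h2
      obtain ⟨a, ha⟩ : ∃ a : ℤ, (p.1.val : ℤ) - h.1.val = a := ⟨_, rfl⟩
      obtain ⟨b, hb⟩ : ∃ b : ℤ, (p.2.val : ℤ) - h.2.val = b := ⟨_, rfl⟩
      have ha' : (q.1.val : ℤ) - h.1.val = a := by rw [← h2]; exact ha
      have hb' : (q.2.val : ℤ) - h.2.val = b + 1 := by omega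
      have g1 := p.1.isLt
      have g2 := p.2.isLt
      have g3 := h.1.isLt
      have g4 := h.2.isLt
      have g5 := q.2.isLt
      rcases edge1 (N := ((2 * n : ℕ) : ℤ)) (n := n) (a := b) (b := a) (by omega) (by omega)
        (by omega) (by omega) (by omega) with ⟨c1, c2, y, x, hR, hx⟩ | ⟨c1, c2, y, x, hR, hx⟩ |
        ⟨y, x, y', x', hR, hR', hadj⟩
      · have hR := hR.swap
        obtain ⟨w, hw1, hw2⟩ := exists_pt hR.bound.1 hR.bound.2.1 hR.bound.2.2.1 hR.bound.2.2.2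
        refine ⟨none, mem_none.2 (Prod.ext (Fin.ext (by omega)) (Fin.ext (by omega))), some w,
          mem_of hw1 hw2 (by rw [ha', hb']; exact hR), ?_⟩
        exact hbd w hw1 hw2 (Or.inr hx)
      · have hR := hR.swap
        obtain ⟨w, hw1, hw2⟩ := exists_pt hR.bound.1 hR.bound.2.1 hR.bound.2.2.1 hR.bound.2.2.2
        refine ⟨some w, mem_of hw1 hw2 (by rw [ha, hb]; exact hR), none,
          mem_none.2 (Prod.ext (Fin.ext (by omega)) (Fin.ext (by omega))), ?_⟩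
        exact hbd w hw1 hw2 (Or.inr hx)
      · have hR := hR.swap
        have hR' := hR'.swap
        obtain ⟨w, hw1, hw2⟩ := exists_pt hR.bound.1 hR.bound.2.1 hR.bound.2.2.1 hR.bound.2.2.2
        obtain ⟨w', hw1', hw2'⟩ := exists_pt hR'.bound.1 hR'.bound.2.1 hR'.bound.2.2.1
          hR'.bound.2.2.2
        exact ⟨some w, mem_of hw1 hw2 (by rw [ha, hb]; exact hR), some w',
          mem_of hw1' hw2' (by rw [ha', hb']; exact hR'),
          adj_pt hw1 hw2 hw1' hw2' (hadj.symm)⟩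
    intro p q hpq
    rw [grid_adj] at hpq
    rcases hpq with ⟨h1 | h1, h2⟩ | ⟨h1 | h1, h2⟩
    · exact e1 p q h1 h2
    · obtain ⟨x, hx, y, hy, hxy⟩ := e1 q p h1 h2.symm
      exact ⟨y, hy, x, hx, hxy.symm⟩
    · exact e2 p q h1 h2
    · obtain ⟨x, hx, y, hy, hxy⟩ := e2 q p h1 h2.symm
      exact ⟨y, hy, x, hx, hxy.symm⟩

end Vale.Agent.P235.H638
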