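import Vale.Agent.P235.H750.VDefs
import Vale.Agent.P235.H12.Roots
import Vale.Agent.P235.H638.Inv

/-!
# (RK33) and (RGRID) (helper638, from the rows of helper12)
-/

set_option autoImplicit false

namespace Vale.Agent.P235.H638

open SimpleGraph hiding Free
open Vale.Agent.P235 Vale.Agent.P235.H134 Vale.Agent.P235.H606 Vale.Agent.P235.H56
open Vale.Agent.P235.H141
open Vale.Agent.P235.H341W (capG)

/-- the rooted version for all graphs gives the version for graphs without a complete minor -/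
theorem rfree_of {W : Type} {H : SimpleGraph W} {h : W} (hf : H12.RFree H h) :
    H750.RFree H h := by
  obtain ⟨Q, hQ⟩ := hf
  intro r
  refine ⟨Q, fun V _ G b hG _ hno => ?_⟩
  by_contra hbad
  exact hno (hQ V G hG hbad b)

/-- (RK33) -/
theorem rK33 : H750.RK33Stmt := fun h => rfree_of (H12.rK33Stmt h)

/-- rooted minors compose -/
theorem rminor_trans {W X V : Type} {H : SimpleGraph W} {K : SimpleGraph X} {G : SimpleGraph V}
    {h : W} {t : X} {v : V} (h1 : H12.RMinor H h K t) (h2 : H12.RMinor K t G v) :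
    H12.RMinor H h G v := by
  obtain ⟨μ, m1, m2, m3, m4⟩ := h1
  obtain ⟨ν, n1, n2, n3, n4⟩ := h2
  refine ⟨fun a => ⋃ x ∈ μ a, ν x, ?_, ?_, ?_, Set.mem_biUnion m4 n4⟩
  · intro a
    have hsub : ∀ x ∈ μ a, ν x ⊆ ⋃ x ∈ μ a, ν x := fun x hx => Set.subset_biUnion_of_mem hx
    have hr : ∀ x (hx : x ∈ μ a) (p q : V) (hp : p ∈ ν x) (hq : q ∈ ν x),
        (G.induce (⋃ x ∈ μ a, ν x)).Reachable ⟨p, hsub x hx hp⟩ ⟨q, hsub x hx hq⟩ :=
      fun x hx p q hp hq => ((n1 x).preconnected ⟨p, hp⟩ ⟨q, hq⟩).map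
        (SimpleGraph.induceHomOfLE G (hsub x hx)).toHom
    have key : ∀ x y : μ a, (K.induce (μ a)).Reachable x y → ∀ p (hp : p ∈ ν x) q (hq : q ∈ ν y),
        (G.induce (⋃ x ∈ μ a, ν x)).Reachable ⟨p, hsub x x.2 hp⟩ ⟨q, hsub y y.2 hq⟩ := by
      intro x y hxy
      obtain ⟨w⟩ := hxy
      induction w with
      | nil => exact fun p hp q hq => hr _ (Subtype.property _) p q hp hq
      | @cons x z y hxz w ih =>
        intro p hp q hq
        obtain ⟨s, hs, t', ht, hst⟩ := n3 x.1 z.1 hxz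
        have hadj : (G.induce (⋃ x ∈ μ a, ν x)).Adj ⟨s, hsub x x.2 hs⟩ ⟨t', hsub z z.2 ht⟩ := hst
        exact ((hr x.1 x.2 p s hp hs).trans hadj.reachable).trans (ih t' ht q hq)
    obtain ⟨x0⟩ := (m1 a).nonempty
    obtain ⟨p0⟩ := (n1 x0.1).nonempty
    have : Nonempty (⋃ x ∈ μ a, ν x : Set V) := ⟨⟨p0.1, hsub x0.1 x0.2 p0.2⟩⟩
    refine ⟨fun ⟨p, hp⟩ ⟨q, hq⟩ => ?_⟩
    obtain ⟨x, hx, hp'⟩ := Set.mem_iUnion₂.1 hp
    obtain ⟨y, hy, hq'⟩ := Set.mem_iUnion₂.1 hq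
    exact key ⟨x, hx⟩ ⟨y, hy⟩ ((m1 a).preconnected _ _) p hp' q hq'
  · intro a b hab
    rw [Set.disjoint_left]
    intro p hp hq
    obtain ⟨x, hx, hp'⟩ := Set.mem_iUnion₂.1 hp
    obtain ⟨y, hy, hq'⟩ := Set.mem_iUnion₂.1 hq
    have hxy : x ≠ y := fun e => Set.disjoint_left.1 (m2 a b hab) hx (e ▸ hy)
    exact Set.disjoint_left.1 (n2 x y hxy) hp' hq'
  · intro a b hab
    obtain ⟨x, hx, y, hy, hxy⟩ := m3 a b hab
    obtain ⟨p, hp, q, hq, hpq⟩ := n3 x y hxy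
    exact ⟨p, Set.mem_biUnion hx hp, q, Set.mem_biUnion hy hq, hpq⟩

/-- rooted grids, for all graphs -/
theorem rGrid' (n : ℕ) (h : Fin n × Fin n) : H12.RFree (grid n) h := by
  obtain ⟨Q, hQ⟩ := H12.rCapStmt (2 * (2 * n) + 1) (by omega)
  refine ⟨Q, fun V _ G hG hbad v => ?_⟩
  obtain ⟨μ, h1, h2, h3, h4⟩ := inv n h
  exact rminor_trans ⟨μ, h1, h2, h3, h4⟩ (hQ V G hG hbad v)

/-- (RGRID) -/
theorem rGrid : H750.RGridStmt := fun n h => rfree_of (rGrid' n h)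

end Vale.Agent.P235.H638
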